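import Mathlib

/-!
# P155, uniqueness of tree families: a Jordan curve bounds at most one bounded open set
-/

namespace Vale.Agent.P155.Tree.UQ

open Set Topology Filter Metric

/-- a continuous function with values in `2 π i ℤ` is constant -/
theorem const_of_exp {M : ℝ → ℂ} (hM : Continuous M) (h : ∀ t, Complex.exp (M t) = 1) (s t : ℝ) :
    M s = M t := by
  have h1 : ∀ t, ∃ n : ℤ, M t = n * (2 * Real.pi * Complex.I) := fun t =>
    Complex.exp_eq_one_iff.1 (h t)
  choose n hn using h1
  have hpi : (0 : ℝ) < 2 * Real.pi := by positivity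
  have h2 : ∀ t, (n t : ℝ) = (M t).im / (2 * Real.pi) := by
    intro t
    rw [hn t, eq_div_iff hpi.ne']
    simp
  have h3 : Continuous fun t => (n t : ℝ) := by
    have : (fun t => (n t : ℝ)) = fun t => (M t).im / (2 * Real.pi) := funext h2
    rw [this]
    fun_prop
  have h4 : Continuous n := Int.isClosedEmbedding_coe_real.isEmbedding.continuous_iff.2 h3
  have h5 : n s = n t := (IsLocallyConstant.iff_continuous n).2 h4 |>.apply_eq_of_preconnectedSpace s t
  rw [hn s, hn t, h5]

/-- continuous logarithms on contractible spaces -/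
theorem exists_log {X : Type} [TopologicalSpace X] [LocallyPathConnectedSpace X]
    [ContractibleSpace X] {G : X → ℂ} (hG : Continuous G) (h0 : ∀ x, G x ≠ 0) :
    ∃ M : X → ℂ, Continuous M ∧ ∀ x, Complex.exp (M x) = G x := by
  have hs : IsSimplyConnected (univ : Set X) := by
    have : ContractibleSpace (univ : Set X) := (Homeomorph.Set.univ X).contractibleSpace
    exact (inferInstance : SimplyConnectedSpace (univ : Set X))
  obtain ⟨M, h1, h2⟩ := Complex.exists_continuousOn_eqOn_exp_comp hs isOpen_univ hG.continuousOn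
    (by
      rintro ⟨x, -, hx⟩
      exact h0 x hx)
  exact ⟨M, continuousOn_univ.1 h1, fun x => h2 (mem_univ x)⟩

/-- the lemma of Eilenberg -/
theorem eil {V : Set ℂ} (hV : IsOpen V) (hb : Bornology.IsBounded V) {z : ℂ} (hz : z ∈ V) {a : ℤ}
    {h L : ℂ → ℂ} (hh : ContinuousOn h (closure V)) (h0 : ∀ u ∈ closure V, h u ≠ 0)
    (hL : Continuous L) (he : ∀ u ∈ frontier V, (u - z) ^ a * h u = Complex.exp (L u)) :
    a = 0 := by
  classical
  have hne : ∀ u ∈ closure Vᶜ, u - z ≠ 0 := by
    intro u hu e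
    rw [hV.isClosed_compl.closure_eq] at hu
    exact hu (sub_eq_zero.1 e ▸ hz)
  have hG : Continuous (V.piecewise (fun u => Complex.exp (L u) / h u) fun u => (u - z) ^ a) := by
    refine continuous_piecewise ?_ ?_ ?_
    · intro u hu
      rw [← he u hu, mul_div_assoc, div_self (h0 u (frontier_subset_closure hu)), mul_one]
    · exact ContinuousOn.div (by fun_prop) hh h0
    · exact ContinuousOn.zpow₀ (by fun_prop) a fun u hu => Or.inl (hne u hu)
  obtain ⟨M, hM, hM'⟩ := exists_log hG (by
    intro u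
    by_cases hu : u ∈ V
    · rw [piecewise_eq_of_mem _ _ _ hu]
      exact div_ne_zero (Complex.exp_ne_zero _) (h0 u (subset_closure hu))
    · rw [piecewise_eq_of_notMem _ _ _ hu]
      exact zpow_ne_zero _ (hne u (subset_closure hu)))
  obtain ⟨R, hR, hVR⟩ := hb.subset_ball_lt 0 z
  have hc : ∀ t : ℝ, z + Complex.exp (Real.log R + Complex.I * t) ∉ V := by
    intro t ht
    have := hVR ht
    rw [mem_ball, dist_eq_norm, add_sub_cancel_left, Complex.norm_exp] at this
    simp [Real.exp_log hR] at this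
  have key := const_of_exp (M := fun t : ℝ => M (z + Complex.exp (Real.log R + Complex.I * t)) -
      a * (Real.log R + Complex.I * t)) (by fun_prop) (by
    intro t
    rw [Complex.exp_sub, hM', piecewise_eq_of_notMem _ _ _ (hc t), add_sub_cancel_left,
      Complex.exp_int_mul, div_self (zpow_ne_zero _ (Complex.exp_ne_zero _))]) 0 (2 * Real.pi)
  have e : Complex.exp (Real.log R + Complex.I * ((2 * Real.pi : ℝ) : ℂ)) =
      Complex.exp (Real.log R + Complex.I * ((0 : ℝ) : ℂ)) := by
    rw [Complex.exp_add, Complex.exp_add]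
    congr 1
    push_cast
    rw [mul_comm, Complex.exp_two_pi_mul_I]
    simp
  simp only [e] at key
  have h1 : (a : ℂ) * (Complex.I * (2 * Real.pi)) = 0 := by
    push_cast at key
    linear_combination key
  have h2 : Complex.I * (2 * Real.pi) ≠ 0 :=
    mul_ne_zero Complex.I_ne_zero (mul_ne_zero two_ne_zero (by exact_mod_cast Real.pi_ne_zero))
  exact_mod_cast (mul_eq_zero.1 h1).resolve_right h2

/-- the lift of a loop which avoids `0` -/
theorem lift {φ : AddCircle (1 : ℝ) → ℂ} (hφ : Continuous φ) (h0 : ∀ t, φ t ≠ 0) :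
    ∃ (M : ℝ → ℂ) (n : ℤ), Continuous M ∧ (∀ t : ℝ, Complex.exp (M t) = φ t) ∧
      ∀ t, M (t + 1) = M t + n * (2 * Real.pi * Complex.I) := by
  obtain ⟨M, hM, hM'⟩ := exists_log (G := fun t : ℝ => φ t)
    (hφ.comp (AddCircle.continuous_mk' 1)) fun t => h0 _
  have h1 : ∀ t, Complex.exp (M (t + 1) - M t) = 1 := by
    intro t
    rw [Complex.exp_sub, hM', hM', AddCircle.coe_add_period, div_self (h0 _)]
  obtain ⟨n, hn⟩ := Complex.exp_eq_one_iff.1 (h1 0)
  refine ⟨M, n, hM, hM', fun t => ?_⟩
  have := const_of_exp (M := fun t => M (t + 1) - M t) (by fun_prop) h1 t 0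
  simp only [hn] at this
  linear_combination this

/-- periodic functions extend to the plane along a Jordan curve -/
theorem extend {c : AddCircle (1 : ℝ) → ℂ} (hc : Continuous c) (hi : Function.Injective c)
    {M : ℝ → ℂ} (hM : Continuous M) (hp : Function.Periodic M 1) :
    ∃ L : ℂ → ℂ, Continuous L ∧ ∀ t : ℝ, L (c t) = M t := by
  have h1 : Continuous (hp.lift : AddCircle (1 : ℝ) → ℂ) := by
    refine continuous_coinduced_dom.2 ?_
    exact hM
  obtain ⟨L, hL⟩ := ContinuousMap.exists_extension' (hc.isClosedEmbedding hi)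
    (⟨hp.lift, h1⟩ : C(AddCircle (1 : ℝ), ℂ))
  exact ⟨L, L.continuous, fun t => congrFun hL t⟩

/-- two disjoint bounded open sets are not bounded by the same Jordan curve -/
theorem jordan_unique {c : AddCircle (1 : ℝ) → ℂ} (hc : Continuous c) (hi : Function.Injective c)
    {V V' : Set ℂ} (hV : IsOpen V) (hV' : IsOpen V') (hb : Bornology.IsBounded V)
    (hb' : Bornology.IsBounded V') (hf : range c = frontier V) (hf' : range c = frontier V')
    {z z' : ℂ} (hz : z ∈ V) (hz' : z' ∈ V') (hd : Disjoint V V') : False := by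
  have hne : ∀ {V : Set ℂ} {z : ℂ}, IsOpen V → range c = frontier V → z ∈ V →
      ∀ t, c t - z ≠ 0 := by
    intro V z hV hf hz t e
    have h1 : c t ∈ frontier V := hf ▸ mem_range_self t
    rw [hV.frontier_eq] at h1
    exact h1.2 (sub_eq_zero.1 e ▸ hz)
  obtain ⟨M, n, hM, hMe, hMp⟩ := lift (φ := fun t => c t - z) (by fun_prop) (hne hV hf hz)
  obtain ⟨M', n', hM', hMe', hMp'⟩ := lift (φ := fun t => c t - z') (by fun_prop) (hne hV' hf' hz')
  have hn' : n' = 0 := by
    obtain ⟨L, hL, hLe⟩ := extend hc hi (M := fun t => n' * M t + (-n : ℤ) * M' t) (by fun_prop) (by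
      intro t
      simp only [hMp, hMp']
      push_cast
      ring)
    have hz2 : ∀ u ∈ closure V, u - z' ≠ 0 := by
      intro u hu e
      have h1 : Disjoint (closure V) V' := hd.closure_left hV'
      exact h1.notMem_of_mem_left hu (sub_eq_zero.1 e ▸ hz')
    refine eil hV hb hz (h := fun u => (u - z') ^ (-n)) (L := L)
      (ContinuousOn.zpow₀ (by fun_prop) _ fun u hu => Or.inl (hz2 u hu))
      (fun u hu => zpow_ne_zero _ (hz2 u hu)) hL ?_
    intro u hu
    rw [← hf] at hu
    obtain ⟨t, rfl⟩ := hu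
    obtain ⟨t, rfl⟩ := QuotientAddGroup.mk_surjective t
    rw [hLe, Complex.exp_add, Complex.exp_int_mul, Complex.exp_int_mul, hMe, hMe']
  obtain ⟨L, hL, hLe⟩ := extend hc hi hM' (by
    intro t
    simp [hMp', hn'])
  have := eil hV' hb' hz' (a := 1) (h := fun _ => 1) (L := L) continuousOn_const
    (fun _ _ => one_ne_zero) hL (by
      intro u hu
      rw [← hf'] at hu
      obtain ⟨t, rfl⟩ := hu
      obtain ⟨t, rfl⟩ := QuotientAddGroup.mk_surjective t
      rw [hLe, hMe', zpow_one, mul_one])
  exact one_ne_zero this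

end Vale.Agent.P155.Tree.UQ
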