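import Vale.Agent.P155Z.UNIQ.Sur

/-!
# P155, uniqueness of tree families: the observables and their factorisation
-/

namespace Vale.Agent.P155.Tree.UQ

open MeasureTheory Filter Topology ProbabilityTheory Set Metric Vale.Agent.P155
  Vale.Agent.P155.Q1

/-- the loops which lie in no member of `𝒱` -/
def outs (𝒱 : Set (Set ℂ)) : Set Loop := {l | ∀ V ∈ 𝒱, ¬ NCLE.LIn l V}

theorem fin_supp {g : Loop → ℝ} (hg : Obs g) (Γ : LoopColl) :
    (Function.support fun l => (Γ.mult l : ℝ) * g l).Finite := by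
  obtain ⟨-, η, hη, h⟩ := hg
  refine (Γ.fin η hη).subset fun l hl => ⟨fun h0 => hl (by simp [h0]), ?_⟩
  by_contra h1
  exact hl (by simp [h l (not_lt.1 h1)])

theorem sm_nonneg {g : Loop → ℝ} (hg : ∀ l, 0 ≤ g l) (Γ : LoopColl) : 0 ≤ sm g Γ :=
  finsum_nonneg fun l => mul_nonneg (Nat.cast_nonneg _) (hg l)

theorem le_sm {g : Loop → ℝ} (ho : Obs g) (hg : ∀ l, 0 ≤ g l) (Γ : LoopColl) (l : Loop) :
    (Γ.mult l : ℝ) * g l ≤ sm g Γ :=
  single_le_finsum l (fin_supp ho Γ) fun l => mul_nonneg (Nat.cast_nonneg _) (hg l)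

theorem sm_congr {g g' : Loop → ℝ} {Γ : LoopColl} (h : ∀ l, Γ.mult l ≠ 0 → g l = g' l) :
    sm g Γ = sm g' Γ := by
  refine finsum_congr fun l => ?_
  by_cases h0 : Γ.mult l = 0
  · simp [h0]
  · rw [h l h0]

theorem sm_zero {g : Loop → ℝ} {Γ : LoopColl} (h : ∀ l, Γ.mult l ≠ 0 → g l = 0) : sm g Γ = 0 := by
  rw [sm_congr (g' := fun _ => 0) h]
  simp [sm]

theorem split {𝒱 : Set (Set ℂ)} (hd : 𝒱.Pairwise Disjoint) {T : Finset (Set ℂ)}
    (hT : ∀ U ∈ T, U ∈ 𝒱) {g : Loop → ℝ} (hg : Obs g)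
    (h0 : ∀ V ∈ 𝒱, V ∉ T → ∀ l, NCLE.LIn l V → g l = 0) (Γ : LoopColl) :
    sm g Γ = sm g (res (outs 𝒱) Γ) + ∑ U ∈ T, sm g (NCLE.inside Γ U) := by
  classical
  have h1 : ∀ U ∈ T,
      (Function.support fun l => ((NCLE.inside Γ U).mult l : ℝ) * g l).Finite :=
    fun U _ => fin_supp hg _
  unfold sm
  rw [← finsum_sum_comm _ _ h1, ← finsum_add_distrib (fin_supp hg _)]
  · refine finsum_congr fun l => ?_
    by_cases h : l ∈ outs 𝒱
    · rw [Finset.sum_eq_zero]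
      · simp [res, h]
      · intro U hU
        simp [NCLE.inside, h U (hT U hU)]
    · have h' := h
      simp only [outs, mem_ofPred_eq, not_forall, not_not] at h'
      obtain ⟨V, hV, hl⟩ := h'
      by_cases hVT : V ∈ T
      · rw [Finset.sum_eq_single_of_mem V hVT]
        · simp [res, h, NCLE.inside, hl]
        · intro U hU hne
          have : ¬ NCLE.LIn l U := fun hl' => lin_disj hl' hl (hd (hT U hU) hV hne)
          simp [NCLE.inside, this]
      · simp [h0 V hV hVT l hl]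
  · refine ((T.finite_toSet.biUnion h1).subset ?_)
    intro l hl
    obtain ⟨U, hU, h⟩ := Finset.exists_ne_zero_of_sum_ne_zero hl
    exact mem_biUnion hU h

open Classical in
/-- the indicator of the large loops around `z` -/
noncomputable def ind (η : ℝ) (z : ℂ) (l : Loop) : ℝ := if η < l.diam ∧ Sur z l then 1 else 0

theorem ind_nonneg (η : ℝ) (z : ℂ) (l : Loop) : 0 ≤ ind η z l := by
  unfold ind
  split_ifs <;> simp

theorem ind_ne {η : ℝ} {z : ℂ} {l : Loop} (h : ind η z l ≠ 0) : η < l.diam ∧ Sur z l := by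
  by_contra h1
  exact h (if_neg h1)

theorem obs_ind (hLM : LM) {η : ℝ} (hη : 0 < η) (z : ℂ) : Obs (ind η z) := by
  let : MeasurableSpace Loop := borel Loop
  refine ⟨Measurable.ite ((meas_big η).inter (meas_sur hLM z)) measurable_const measurable_const,
    η, hη, fun l hl => ?_⟩
  by_contra h
  exact (ind_ne h).1.not_ge hl

open Classical in
/-- the truncated characteristic function -/
noncomputable def FF (η : ℝ) (Z : Finset ℂ) (d : ℂ → ℝ) (g : Loop → ℝ) (Γ : LoopColl) : ℂ :=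
  if ∀ z ∈ Z, sm (ind η z) Γ < d z then Complex.exp (Complex.I * sm g Γ) else 0

theorem norm_exp (t : ℝ) : ‖Complex.exp (Complex.I * t)‖ = 1 := by
  rw [mul_comm, Complex.norm_exp_ofReal_mul_I]

theorem norm_FF (η : ℝ) (Z : Finset ℂ) (d : ℂ → ℝ) (g : Loop → ℝ) (Γ : LoopColl) :
    ‖FF η Z d g Γ‖ ≤ 1 := by
  unfold FF
  split_ifs
  · exact (norm_exp _).le
  · simp

theorem meas_exp (hLM : LM) {g : Loop → ℝ} (hg : Obs g) :
    Measurable fun Γ => Complex.exp (Complex.I * sm g Γ) := by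
  have := hLM.2.2.1 g hg
  fun_prop

theorem meas_FF (hLM : LM) {η : ℝ} (hη : 0 < η) (Z : Finset ℂ) (d : ℂ → ℝ) {g : Loop → ℝ}
    (hg : Obs g) : Measurable (FF η Z d g) := by
  refine Measurable.ite ?_ (meas_exp hLM hg) measurable_const
  have : {Γ | ∀ z ∈ Z, sm (ind η z) Γ < d z} = ⋂ z ∈ Z, {Γ | sm (ind η z) Γ < d z} := by
    ext Γ
    simp
  rw [this]
  exact Z.measurableSet_biInter fun z _ =>
    measurableSet_lt (hLM.2.2.1 _ (obs_ind hLM hη z)) measurable_const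

open Classical in
theorem factor (hLM : LM) (hT : TOPO) {η : ℝ} (hη : 0 < η) {𝒱 : Set (Set ℂ)}
    (hD : ∀ V ∈ 𝒱, Dom V) (hd : 𝒱.Pairwise Disjoint) {Z : Finset ℂ} {T : Finset (Set ℂ)}
    (hT1 : ∀ U ∈ T, U ∈ 𝒱) (hT2 : ∀ z ∈ Z, ∃ U ∈ T, z ∈ U) {g : Loop → ℝ} (hg : Obs g)
    (h0 : ∀ V ∈ 𝒱, ∀ l, NCLE.LIn l V → g l ≠ 0 → ∃ z ∈ Z, Sur z l) (d : ℂ → ℝ) (Γ : LoopColl) :
    FF η Z d g Γ = Complex.exp (Complex.I * sm g (res (outs 𝒱) Γ)) *
      ∏ U ∈ T, FF η (Z.filter (· ∈ U)) (fun z => d z - sm (ind η z) (res (outs 𝒱) Γ)) g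
        (NCLE.inside Γ U) := by
  have h1 : ∀ U ∈ 𝒱, ∀ z ∈ U, sm (ind η z) Γ =
      sm (ind η z) (res (outs 𝒱) Γ) + sm (ind η z) (NCLE.inside Γ U) := by
    intro U hU z hz
    rw [split hd (T := {U}) (by simpa using hU) (obs_ind hLM hη z) ?_ Γ, Finset.sum_singleton]
    intro V hV hne l hl
    by_contra h
    exact (hd hV hU (by simpa using hne)).notMem_of_mem_left
      (mem_of_sur hT (hD V hV) hl (ind_ne h).2) hz
  have h2 : sm g Γ = sm g (res (outs 𝒱) Γ) + ∑ U ∈ T, sm g (NCLE.inside Γ U) := by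
    refine split hd hT1 hg (fun V hV hne l hl => ?_) Γ
    by_contra h
    obtain ⟨z, hz, hs⟩ := h0 V hV l hl h
    obtain ⟨U, hU, hzU⟩ := hT2 z hz
    exact (hd hV (hT1 U hU) fun e => hne (e ▸ hU)).notMem_of_mem_left
      (mem_of_sur hT (hD V hV) hl hs) hzU
  have h3 : (∀ z ∈ Z, sm (ind η z) Γ < d z) ↔ ∀ U ∈ T, ∀ z ∈ Z.filter (· ∈ U),
      sm (ind η z) (NCLE.inside Γ U) < d z - sm (ind η z) (res (outs 𝒱) Γ) := by
    constructor
    · intro h U hU z hz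
      rw [Finset.mem_filter] at hz
      have := h z hz.1
      rw [h1 U (hT1 U hU) z hz.2] at this
      linarith
    · intro h z hz
      obtain ⟨U, hU, hzU⟩ := hT2 z hz
      have := h U hU z (Finset.mem_filter.2 ⟨hz, hzU⟩)
      rw [h1 U (hT1 U hU) z hzU]
      linarith
  unfold FF
  rw [Finset.prod_ite_zero]
  by_cases h : ∀ z ∈ Z, sm (ind η z) Γ < d z
  · rw [if_pos h, if_pos (h3.1 h), ← Complex.exp_sum, ← Complex.exp_add, h2]
    congr 1
    push_cast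
    rw [mul_add, Finset.mul_sum]
  · rw [if_neg h, if_neg fun h' => h (h3.2 h'), mul_zero]

theorem integral_prod {μ : Set ℂ → Measure LoopColl} {Q : Measure LoopColl}
    {𝒱 𝒮 : Set (Set ℂ)} (hG : Given μ Q 𝒱 𝒮) {T : Finset (Set ℂ)} (hT1 : ∀ U ∈ T, U ∈ 𝒱)
    {F : Set ℂ → LoopColl → ℂ} (hF : ∀ U, Measurable (F U)) :
    ∫ Γ, ∏ U ∈ T, F U (NCLE.inside Γ U) ∂Q = ∏ U ∈ T, ∫ Γ, F U Γ ∂(μ U) := by
  have h1 := hG.indep T.card (fun i => (T.equivFin.symm i : Set ℂ))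
    (Subtype.val_injective.comp T.equivFin.symm.injective) fun i => hT1 _ (T.equivFin.symm i).2
  have h2 : iIndepFun (fun (U : T) Γ => NCLE.inside Γ U) Q :=
    iIndepFun.of_precomp T.equivFin.symm.surjective h1
  have h3 := h2.integral_fun_prod_comp (f := fun U : T => F U)
    (fun U => (hG.law U (hT1 U U.2)).1) fun U => (hF U).aestronglyMeasurable
  rw [← Finset.prod_coe_sort T]
  simp only [← Finset.prod_coe_sort T]
  rw [h3]
  refine Finset.prod_congr rfl fun U _ => ?_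
  rw [← (hG.law U (hT1 U U.2)).2, integral_map (hG.law U (hT1 U U.2)).1
    (hF U).aestronglyMeasurable]

end Vale.Agent.P155.Tree.UQ
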