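import Vale.Agent.P155Z.UNIQ.Split

/-!
# P155, uniqueness of tree families: one step of the exploration
-/

namespace Vale.Agent.P155.Tree.UQ

open MeasureTheory Filter Topology ProbabilityTheory Set Metric Vale.Agent.P155
  Vale.Agent.P155.Q1

/-- admissible data of complexity at most `c` -/
structure Adm (η : ℝ) (Ω : Set ℂ) (Z : Finset ℂ) (d : ℂ → ℝ) (g : Loop → ℝ) (c : ℝ) : Prop where
  dom : Dom Ω
  sub : ∀ z ∈ Z, z ∈ Ω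
  obs : Obs g
  supp : ∀ l, NCLE.LIn l Ω → g l ≠ 0 → η < l.diam ∧ ∃ z ∈ Z, Sur z l
  pos : ∀ z ∈ Z, 0 < d z
  cx : ∑ z ∈ Z, (1 + d z) ≤ c

/-- the two families differ by at most `Δ` up to complexity `c` -/
def Bd (μ ν : Set ℂ → Measure LoopColl) (η c Δ : ℝ) : Prop := ∀ Ω Z d g, Adm η Ω Z d g c →
  ‖∫ Γ, FF η Z d g Γ ∂(μ Ω) - ∫ Γ, FF η Z d g Γ ∂(ν Ω)‖ ≤ Δ

theorem ae_lin {μ : Set ℂ → Measure LoopColl} (hμ : IsTree μ) {Ω : Set ℂ} (hΩ : Dom Ω) :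
    ∀ᵐ Γ ∂(μ Ω), ∀ l, Γ.mult l ≠ 0 → NCLE.LIn l Ω := by
  filter_upwards [hμ.simple Ω hΩ] with Γ h l hl
  obtain ⟨γ, U, -, -, h1, h2, rfl⟩ := h l hl
  exact (lin_mk _ _).2 (h2.2 ▸ frontier_subset_closure.trans h1)

theorem triv {μ : Set ℂ → Measure LoopColl} (hμ : IsTree μ) {η c : ℝ} {Ω : Set ℂ} {Z : Finset ℂ}
    {d : ℂ → ℝ} {g : Loop → ℝ} (A : Adm η Ω Z d g c)
    (h : ∀ l, NCLE.LIn l Ω → η < l.diam → ∀ z ∈ Z, ¬ Sur z l) :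
    ∫ Γ, FF η Z d g Γ ∂(μ Ω) = 1 := by
  have := hμ.prob Ω A.dom
  have h1 : ∀ᵐ Γ ∂(μ Ω), FF η Z d g Γ = 1 := by
    filter_upwards [ae_lin hμ A.dom] with Γ hΓ
    have h2 : sm g Γ = 0 := sm_zero fun l hl => by
      by_contra h0
      obtain ⟨h3, z, hz, h4⟩ := A.supp l (hΓ l hl) h0
      exact h l (hΓ l hl) h3 z hz h4
    have h3 : ∀ z ∈ Z, sm (ind η z) Γ < d z := by
      intro z hz
      rw [sm_zero fun l hl => ?_]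
      · exact A.pos z hz
      · by_contra h0
        exact h l (hΓ l hl) (ind_ne h0).1 z hz (ind_ne h0).2
    unfold FF
    rw [if_pos h3, h2]
    simp
  rw [integral_congr_ae h1]
  simp

theorem exists_outer {μ ν : Set ℂ → Measure LoopColl} {Q Q' : Measure LoopColl}
    [IsProbabilityMeasure Q] {𝒱 𝒮 : Set (Set ℂ)} (hG : Given μ Q 𝒱 𝒮) (hG' : Given ν Q' 𝒱 𝒮) :
    ∃ Γ₀ : LoopColl, (∀ᵐ Γ ∂Q, res (outs 𝒱) Γ = Γ₀) ∧ (∀ᵐ Γ ∂Q', res (outs 𝒱) Γ = Γ₀) ∧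
      ∀ l ∈ outs 𝒱, Γ₀.mult l = Set.ncard {V | V ∈ 𝒮 ∧ ∃ γ : PL, IsJordan γ (frontier V) ∧
        SeparationQuotient.mk γ = l} := by
  obtain ⟨Γ₁, h1⟩ := hG.loops.exists
  have key : ∀ Γ : LoopColl, (∀ l, (∀ V ∈ 𝒱, ¬ NCLE.LIn l V) → Γ.mult l =
      Set.ncard {V | V ∈ 𝒮 ∧ ∃ γ : PL, IsJordan γ (frontier V) ∧ SeparationQuotient.mk γ = l}) →
      res (outs 𝒱) Γ = res (outs 𝒱) Γ₁ := by
    intro Γ h
    ext l
    by_cases hl : l ∈ outs 𝒱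
    · simp only [res, if_pos hl]
      rw [h l hl, h1 l hl]
    · simp only [res, if_neg hl]
  refine ⟨res (outs 𝒱) Γ₁, hG.loops.mono key, hG'.loops.mono key, fun l hl => ?_⟩
  simp only [res, if_pos hl]
  exact h1 l hl

open Classical in
theorem fact_int (hLM : LM) (hT : TOPO) {η : ℝ} (hη : 0 < η) {μ : Set ℂ → Measure LoopColl}
    {Q : Measure LoopColl} {𝒱 𝒮 : Set (Set ℂ)} (hG : Given μ Q 𝒱 𝒮)
    (hD : ∀ V ∈ 𝒱, Dom V) (hd : 𝒱.Pairwise Disjoint) {Z : Finset ℂ} {T : Finset (Set ℂ)}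
    (hT1 : ∀ U ∈ T, U ∈ 𝒱) (hT2 : ∀ z ∈ Z, ∃ U ∈ T, z ∈ U) {g : Loop → ℝ} (hg : Obs g)
    (h0 : ∀ V ∈ 𝒱, ∀ l, NCLE.LIn l V → g l ≠ 0 → ∃ z ∈ Z, Sur z l) (d : ℂ → ℝ) {Γ₀ : LoopColl}
    (h1 : ∀ᵐ Γ ∂Q, res (outs 𝒱) Γ = Γ₀) :
    ∫ Γ, FF η Z d g Γ ∂Q = Complex.exp (Complex.I * sm g Γ₀) *
      ∏ U ∈ T, ∫ Γ, FF η (Z.filter (· ∈ U)) (fun z => d z - sm (ind η z) Γ₀) g Γ ∂(μ U) := by
  rw [← integral_prod hG hT1 (F := fun U =>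
    FF η (Z.filter (· ∈ U)) (fun z => d z - sm (ind η z) Γ₀) g) fun U => meas_FF hLM hη _ _ hg,
    ← integral_const_mul]
  refine integral_congr_ae ?_
  filter_upwards [h1] with Γ hΓ
  rw [factor hLM hT hη hD hd hT1 hT2 hg h0 d Γ, hΓ]

theorem step (hLM : LM) (hT : TOPO) {μ ν : Set ℂ → Measure LoopColl} (hμ : IsTree μ)
    (hν : IsTree ν) {η c Δ : ℝ} (hη : 0 < η) (IH : Bd μ ν η c 0) (HB : Bd μ ν η (c + 1) Δ)
    {Ω : Set ℂ} {Z : Finset ℂ} {d : ℂ → ℝ} {g : Loop → ℝ} (A : Adm η Ω Z d g (c + 1))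
    {𝒱 𝒮 : Set (Set ℂ)} (hS : 𝒮 ⊆ 𝒱) (hD : ∀ V ∈ 𝒱, Dom V) (hsub : ∀ V ∈ 𝒱, V ⊆ Ω)
    (hd : 𝒱.Pairwise Disjoint) (hZ : ∀ z ∈ Z, ∃ U ∈ 𝒱, z ∈ U) {Q Q' : Measure LoopColl}
    [IsProbabilityMeasure Q] (hG : Given μ Q 𝒱 𝒮) (hG' : Given ν Q' 𝒱 𝒮) {z₁ : ℂ} {U₁ : Set ℂ}
    (hz₁ : z₁ ∈ Z) (hU₁ : U₁ ∈ 𝒱) (hzU : z₁ ∈ U₁) :
    ‖∫ Γ, FF η Z d g Γ ∂Q - ∫ Γ, FF η Z d g Γ ∂Q'‖ ≤ Δ ∧
      (U₁ ∈ 𝒮 → ∫ Γ, FF η Z d g Γ ∂Q = ∫ Γ, FF η Z d g Γ ∂Q') := by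
  classical
  have hΔ : 0 ≤ Δ := (norm_nonneg _).trans (HB Ω Z d g A)
  obtain ⟨Γ₀, h1, h1', h2⟩ := exists_outer hG hG'
  have h0 : ∀ V ∈ 𝒱, ∀ l, NCLE.LIn l V → g l ≠ 0 → ∃ z ∈ Z, Sur z l :=
    fun V hV l hl h => (A.supp l (lin_mono hl (hsub V hV)) h).2
  set d' : ℂ → ℝ := fun z => d z - sm (ind η z) Γ₀ with hd'
  have hle : ∀ z, d' z ≤ d z := fun z => sub_le_self _ (sm_nonneg (ind_nonneg η z) Γ₀)
  choose! u hu hu' using hZ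
  have hT1 : ∀ U ∈ Z.image u, U ∈ 𝒱 := by
    intro U hU
    obtain ⟨z, hz, rfl⟩ := Finset.mem_image.1 hU
    exact hu z hz
  have hT2 : ∀ z ∈ Z, ∃ U ∈ Z.image u, z ∈ U :=
    fun z hz => ⟨u z, Finset.mem_image_of_mem u hz, hu' z hz⟩
  have of_eq : ∫ Γ, FF η Z d g Γ ∂Q = ∫ Γ, FF η Z d g Γ ∂Q' →
      ‖∫ Γ, FF η Z d g Γ ∂Q - ∫ Γ, FF η Z d g Γ ∂Q'‖ ≤ Δ ∧
      (U₁ ∈ 𝒮 → ∫ Γ, FF η Z d g Γ ∂Q = ∫ Γ, FF η Z d g Γ ∂Q') := by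
    intro h
    refine ⟨?_, fun _ => h⟩
    rw [h, sub_self, norm_zero]
    exact hΔ
  by_cases hpos : ∀ z ∈ Z, 0 < d' z
  swap
  · push Not at hpos
    obtain ⟨z, hz, hz'⟩ := hpos
    have h3 : ∀ Γ, FF η (Z.filter (· ∈ u z)) d' g Γ = 0 := by
      intro Γ
      refine if_neg fun h => ?_
      have := h z (Finset.mem_filter.2 ⟨hz, hu' z hz⟩)
      linarith [sm_nonneg (ind_nonneg η z) Γ]
    refine of_eq ?_
    rw [fact_int hLM hT hη hG hD hd hT1 hT2 A.obs h0 d h1,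
      fact_int hLM hT hη hG' hD hd hT1 hT2 A.obs h0 d h1',
      Finset.prod_eq_zero (Finset.mem_image_of_mem u hz),
      Finset.prod_eq_zero (Finset.mem_image_of_mem u hz)]
    · simp only [← hd', h3, integral_zero]
    · simp only [← hd', h3, integral_zero]
  have adm : ∀ U ∈ 𝒱, ∀ c', ∑ z ∈ Z.filter (· ∈ U), (1 + d' z) ≤ c' →
      Adm η U (Z.filter (· ∈ U)) d' g c' := by
    intro U hU c' hc
    refine ⟨hD U hU, fun z hz => (Finset.mem_filter.1 hz).2, A.obs, fun l hl h => ?_,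
      fun z hz => hpos z (Finset.mem_filter.1 hz).1, hc⟩
    obtain ⟨h3, z, hz, h4⟩ := A.supp l (lin_mono hl (hsub U hU)) h
    exact ⟨h3, z, Finset.mem_filter.2 ⟨hz, mem_of_sur hT (hD U hU) hl h4⟩, h4⟩
  by_cases hall : ∀ z ∈ Z, z ∈ U₁
  swap
  · refine of_eq ?_
    rw [fact_int hLM hT hη hG hD hd hT1 hT2 A.obs h0 d h1,
      fact_int hLM hT hη hG' hD hd hT1 hT2 A.obs h0 d h1']
    congr 1
    refine Finset.prod_congr rfl fun U hU => ?_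
    obtain ⟨z₀, hz₀, hz₀'⟩ : ∃ z₀ ∈ Z, z₀ ∉ U := by
      by_cases e : U = U₁
      · push Not at hall
        exact e ▸ hall
      · exact ⟨z₁, hz₁, fun h => (hd (hT1 U hU) hU₁ e).notMem_of_mem_left h hzU⟩
    refine sub_eq_zero.1 (norm_le_zero_iff.1 (IH U _ d' g (adm U (hT1 U hU) c ?_)))
    have h3 : ∑ z ∈ Z.filter (· ∈ U), (1 + d' z) ≤ ∑ z ∈ Z.erase z₀, (1 + d' z) := by
      refine Finset.sum_le_sum_of_subset_of_nonneg (fun z hz => ?_) fun z hz _ => ?_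
      · rw [Finset.mem_filter] at hz
        exact Finset.mem_erase.2 ⟨fun e => hz₀' (e ▸ hz.2), hz.1⟩
      · linarith [hpos z (Finset.mem_of_mem_erase hz)]
    have h4 : ∑ z ∈ Z.erase z₀, (1 + d' z) ≤ ∑ z ∈ Z.erase z₀, (1 + d z) :=
      Finset.sum_le_sum fun z _ => by linarith [hle z]
    have h5 := Finset.add_sum_erase Z (fun z => 1 + d z) hz₀
    linarith [A.cx, A.pos z₀ hz₀]
  have hT1' : ∀ U ∈ ({U₁} : Finset (Set ℂ)), U ∈ 𝒱 := by simpa using hU₁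
  have hT2' : ∀ z ∈ Z, ∃ U ∈ ({U₁} : Finset (Set ℂ)), z ∈ U := by simpa using hall
  have hf : Z.filter (· ∈ U₁) = Z := Finset.filter_true_of_mem hall
  have adm' : ∀ c', ∑ z ∈ Z, (1 + d' z) ≤ c' → Adm η U₁ Z d' g c' := by
    intro c' hc
    have := adm U₁ hU₁ c' (by rwa [hf])
    rwa [hf] at this
  have h4 : ∑ z ∈ Z, (1 + d' z) ≤ ∑ z ∈ Z, (1 + d z) :=
    Finset.sum_le_sum fun z _ => by linarith [hle z]
  rw [fact_int hLM hT hη hG hD hd hT1' hT2' A.obs h0 d h1,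
    fact_int hLM hT hη hG' hD hd hT1' hT2' A.obs h0 d h1', Finset.prod_singleton,
    Finset.prod_singleton, ← hd', hf]
  refine ⟨?_, fun hs => ?_⟩
  · rw [← mul_sub, norm_mul, norm_exp, one_mul]
    exact HB U₁ Z d' g (adm' _ (h4.trans A.cx))
  congr 1
  obtain ⟨γ, hγ⟩ := hG.jordan U₁ hs
  by_cases hbig : η < Loop.diam (SeparationQuotient.mk γ)
  · refine sub_eq_zero.1 (norm_le_zero_iff.1 (IH U₁ Z d' g (adm' c ?_)))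
    have h5 : Γ₀.mult (SeparationQuotient.mk γ) = 1 := by
      rw [h2 _ (outer (fun V hV => (hD V hV).1) hd hU₁ hγ.2)]
      exact ncard_one hD hd hS hs hγ
    have h6 := le_sm (obs_ind hLM hη z₁) (ind_nonneg η z₁) Γ₀ (SeparationQuotient.mk γ)
    have h7 : ind η z₁ (SeparationQuotient.mk γ) = 1 :=
      if_pos ⟨hbig, sur_of_mem (hD U₁ hU₁).1 (hD U₁ hU₁).2.1 hγ.2 hzU⟩
    rw [h5, h7] at h6
    have h8 : ∑ z ∈ Z.erase z₁, (1 + d' z) ≤ ∑ z ∈ Z.erase z₁, (1 + d z) :=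
      Finset.sum_le_sum fun z _ => by linarith [hle z]
    have h9 := Finset.add_sum_erase Z (fun z => 1 + d z) hz₁
    have h10 := Finset.add_sum_erase Z (fun z => 1 + d' z) hz₁
    have h11 : d' z₁ = d z₁ - sm (ind η z₁) Γ₀ := rfl
    push_cast at h6
    linarith [A.cx]
  · have h5 : ∀ l, NCLE.LIn l U₁ → η < l.diam → ∀ z ∈ Z, ¬ Sur z l := by
      intro l hl h
      exact absurd (h.trans_le (diam_le_of_lin (hD U₁ hU₁).1 (hD U₁ hU₁).2.1 hγ.2 hl)) hbig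
    rw [triv hμ (adm' _ le_rfl) h5, triv hν (adm' _ le_rfl) h5]

end Vale.Agent.P155.Tree.UQ
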