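import Vale.Agent.P155Z.Sk
import Vale.Agent.P155Z.UNIQ.Jor

/-!
# P155, uniqueness of tree families: points surrounded by loops
-/

namespace Vale.Agent.P155.Tree.UQ

open MeasureTheory Filter Topology Set Metric Vale.Agent.P155 Vale.Agent.P155.Q1

theorem range_sub {γ γ' : PL} (h : SeparationQuotient.mk γ = SeparationQuotient.mk γ') :
    range γ.c ⊆ range γ'.c := by
  have h0 : dist γ γ' = 0 := Metric.inseparable_iff.1 (SeparationQuotient.mk_eq_mk.1 h)
  rintro _ ⟨t, rfl⟩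
  rw [← (isCompact_rng γ').isClosed.closure_eq, Metric.mem_closure_iff]
  intro ε hε
  obtain ⟨φ, hφ⟩ := exists_lt (show ldist γ γ' < ε by rw [← dist_def, h0]; exact hε)
  exact ⟨γ'.c (φ t), ⟨_, rfl⟩, (ContinuousMap.dist_apply_le_dist (f := γ.c)
    (g := γ'.c.comp (φ : C(S1, S1))) t).trans_lt hφ⟩

theorem lin_mk (γ : PL) (U : Set ℂ) : NCLE.LIn (SeparationQuotient.mk γ) U ↔ range γ.c ⊆ U :=
  ⟨fun h => h γ rfl, fun h _ e => (range_sub e).trans h⟩

theorem lin_mono {l : Loop} {U V : Set ℂ} (h : NCLE.LIn l U) (hUV : U ⊆ V) : NCLE.LIn l V :=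
  fun γ e => (h γ e).trans hUV

theorem lin_disj {l : Loop} {U V : Set ℂ} (h : NCLE.LIn l U) (h' : NCLE.LIn l V)
    (hd : Disjoint U V) : False := by
  obtain ⟨γ, rfl⟩ := SeparationQuotient.surjective_mk l
  exact hd.notMem_of_mem_left (h γ rfl ⟨0, rfl⟩) (h' γ rfl ⟨0, rfl⟩)

/-- `z` is joined to infinity off the loop -/
def Out (z : ℂ) (l : Loop) : Prop := ∃ A : Set ℂ, IsClosed A ∧ IsPreconnected A ∧
  ¬ Bornology.IsBounded A ∧ z ∈ A ∧ NCLE.LIn l Aᶜ

/-- the loop `l` surrounds `z` -/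
def Sur (z : ℂ) (l : Loop) : Prop := NCLE.LIn l {z}ᶜ ∧ ¬ Out z l

theorem meas_sur (hLM : LM) (z : ℂ) : MeasurableSet[borel Loop] {l | Sur z l} := by
  let : MeasurableSpace Loop := borel Loop
  have : BorelSpace Loop := ⟨rfl⟩
  have h1 : IsOpen {l : Loop | NCLE.LIn l {z}ᶜ} := (hLM.2.2.2.2.1 _ isOpen_compl_singleton).1
  have h2 : IsOpen {l : Loop | Out z l} := by
    rw [isOpen_iff_mem_nhds]
    rintro l ⟨A, hA, h1, h2, h3, h4⟩
    filter_upwards [(hLM.2.2.2.2.1 _ hA.isOpen_compl).1.mem_nhds h4] with l' hl'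
    exact ⟨A, hA, h1, h2, h3, hl'⟩
  exact h1.measurableSet.inter h2.measurableSet.compl

theorem meas_big (η : ℝ) : MeasurableSet[borel Loop] {l : Loop | η < l.diam} := by
  let : MeasurableSpace Loop := borel Loop
  have : BorelSpace Loop := ⟨rfl⟩
  have h : Continuous Loop.diam := by
    refine (LipschitzWith.of_le_add_mul' 2 fun a b => ?_).continuous
    exact Loop.diam_le a b
  exact (isOpen_lt continuous_const h).measurableSet

/-- a loop in a domain surrounds only points of the domain -/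
theorem mem_of_sur (hT : TOPO) {U : Set ℂ} (hU : Dom U) {l : Loop} (hl : NCLE.LIn l U) {z : ℂ}
    (hz : Sur z l) : z ∈ U := by
  by_contra h
  refine hz.2 ⟨Uᶜ, hU.1.isClosed_compl, (hT.1 U hU).2.1, fun hb => ?_, h, by rwa [compl_compl]⟩
  have := hU.2.1.union hb
  rw [union_compl_self] at this
  exact NormedSpace.unbounded_univ ℝ ℂ this

/-- unbounded connected sets which meet a bounded open set meet its boundary -/
theorem meets {U A : Set ℂ} (hU : IsOpen U) (hb : Bornology.IsBounded U) (hA : IsPreconnected A)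
    (hu : ¬ Bornology.IsBounded A) {z : ℂ} (hz : z ∈ U) (hzA : z ∈ A) :
    ∃ p ∈ A, p ∈ frontier U := by
  by_contra h
  push Not at h
  refine hu (hb.subset (hA.subset_of_closure_inter_subset hU ⟨z, hzA, hz⟩ ?_))
  rintro p ⟨h1, h2⟩
  by_contra h3
  exact h p h2 (by rw [hU.frontier_eq]; exact ⟨h1, h3⟩)

/-- the boundary of a bounded open set surrounds its points -/
theorem sur_of_mem {U : Set ℂ} (hU : IsOpen U) (hb : Bornology.IsBounded U) {γ : PL}
    (hγ : range γ.c = frontier U) {z : ℂ} (hz : z ∈ U) : Sur z (SeparationQuotient.mk γ) := by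
  refine ⟨(lin_mk _ _).2 ?_, ?_⟩
  · rw [hγ, hU.frontier_eq]
    rintro p hp rfl
    exact hp.2 hz
  · rintro ⟨A, -, h1, h2, h3, h4⟩
    obtain ⟨p, hp, hp'⟩ := meets hU hb h1 h2 hz h3
    exact (lin_mk _ _).1 h4 (hγ ▸ hp') hp

theorem ray {U : Set ℂ} (hU : IsOpen U) (hb : Bornology.IsBounded U) {p v : ℂ} (hp : p ∈ U)
    (hv : v ≠ 0) : ∃ t : ℝ, 0 ≤ t ∧ p + t * v ∈ frontier U := by
  have h1 : IsPreconnected ((fun t : ℝ => p + t * v) '' Ici 0) :=
    isPreconnected_Ici.image _ (by fun_prop)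
  have h2 : ¬ Bornology.IsBounded ((fun t : ℝ => p + t * v) '' Ici 0) := by
    intro h
    obtain ⟨R, hR, h3⟩ := h.subset_ball_lt 0 p
    have hv' : 0 < ‖v‖ := norm_pos_iff.2 hv
    have := h3 ⟨R / ‖v‖, mem_Ici.2 (by positivity), rfl⟩
    rw [mem_ball, dist_eq_norm, add_sub_cancel_left, norm_mul, Complex.norm_real,
      Real.norm_of_nonneg (by positivity), div_mul_cancel₀ _ hv'.ne'] at this
    exact lt_irrefl _ this
  obtain ⟨_, ⟨t, ht, rfl⟩, h⟩ := meets hU hb h1 h2 hp ⟨0, mem_Ici.2 le_rfl, by simp⟩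
  exact ⟨t, ht, h⟩

/-- a bounded open set is not larger than its boundary -/
theorem dist_le {U : Set ℂ} (hU : IsOpen U) (hb : Bornology.IsBounded U) {p q : ℂ} (hp : p ∈ U)
    (hq : q ∈ U) : dist p q ≤ Metric.diam (frontier U) := by
  by_cases e : p = q
  · rw [e, dist_self]
    exact Metric.diam_nonneg
  obtain ⟨t, ht, h1⟩ := ray hU hb hp (sub_ne_zero.2 e)
  obtain ⟨s, hs, h2⟩ := ray hU hb hq (sub_ne_zero.2 (Ne.symm e))
  refine le_trans ?_ (Metric.dist_le_diam_of_mem (hb.closure.subset frontier_subset_closure) h1 h2)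
  have e1 : p + t * (p - q) - (q + s * (q - p)) = ((1 + t + s : ℝ) : ℂ) * (p - q) := by
    push_cast
    ring
  rw [dist_eq_norm, dist_eq_norm, e1, norm_mul, Complex.norm_real,
    Real.norm_of_nonneg (by positivity)]
  nlinarith [norm_nonneg (p - q)]

theorem diam_le_of_lin {U : Set ℂ} (hU : IsOpen U) (hb : Bornology.IsBounded U) {γ : PL}
    (hγ : range γ.c = frontier U) {l : Loop} (hl : NCLE.LIn l U) :
    l.diam ≤ Loop.diam (SeparationQuotient.mk γ) := by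
  obtain ⟨γ', rfl⟩ := SeparationQuotient.surjective_mk l
  rw [Loop.diam_mk, Loop.diam_mk, PL.diam, PL.diam, hγ]
  exact Metric.diam_le_of_forall_dist_le Metric.diam_nonneg fun p hp q hq =>
    dist_le hU hb (hl γ' rfl hp) (hl γ' rfl hq)

/-- the boundary of a member of a disjoint family of domains lies in no member -/
theorem outer {𝒱 : Set (Set ℂ)} (ho : ∀ V ∈ 𝒱, IsOpen V) (hd : 𝒱.Pairwise Disjoint) {U : Set ℂ}
    (hU : U ∈ 𝒱) {γ : PL} (hγ : range γ.c = frontier U) :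
    ∀ V ∈ 𝒱, ¬ NCLE.LIn (SeparationQuotient.mk γ) V := by
  intro V hV h
  have h1 : γ.c 0 ∈ frontier U := hγ ▸ mem_range_self 0
  have h2 : γ.c 0 ∈ V := h γ rfl (mem_range_self 0)
  by_cases e : U = V
  · rw [(ho U hU).frontier_eq] at h1
    exact h1.2 (e ▸ h2)
  · exact ((hd hU hV e).closure_left (ho V hV)).notMem_of_mem_left (frontier_subset_closure h1) h2

/-- ... and has multiplicity one -/
theorem ncard_one {𝒱 𝒮 : Set (Set ℂ)} (hD : ∀ V ∈ 𝒱, Dom V) (hd : 𝒱.Pairwise Disjoint)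
    (hS : 𝒮 ⊆ 𝒱) {U : Set ℂ} (hU : U ∈ 𝒮) {γ : PL} (hγ : IsJordan γ (frontier U)) :
    Set.ncard {V | V ∈ 𝒮 ∧ ∃ γ' : PL, IsJordan γ' (frontier V) ∧
      SeparationQuotient.mk γ' = SeparationQuotient.mk γ} = 1 := by
  rw [Set.ncard_eq_one]
  refine ⟨U, eq_singleton_iff_unique_mem.2 ⟨⟨hU, γ, hγ, rfl⟩, ?_⟩⟩
  rintro V ⟨hV, γ', h1, h2⟩
  by_contra e
  obtain ⟨z, hz⟩ := (hD V (hS hV)).2.2.1
  obtain ⟨z', hz'⟩ := (hD U (hS hU)).2.2.1
  have h3 : range γ.c = frontier V := by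
    rw [← h1.2]
    exact (range_sub h2.symm).antisymm (range_sub h2)
  exact jordan_unique γ.c.continuous hγ.1 (hD V (hS hV)).1 (hD U (hS hU)).1 (hD V (hS hV)).2.1
    (hD U (hS hU)).2.1 h3 hγ.2 hz hz' (hd (hS hV) (hS hU) e)

end Vale.Agent.P155.Tree.UQ
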